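import Vale.Agent.P290.H470.Div
import Vale.Agent.P267.H365.Curv
import Vale.Agent.P267.H62.NFLB

/-! # Irreducible curves and norm functions (helper470) -/

open Set Filter Metric Topology
open scoped Manifold ContDiff
open Vale.Agent.P267 Vale.Agent.P272.K Vale.Agent.P267.H815
open Vale.Agent.P267.H757 (IsNormFn LocRep isNormFn_one)
open Vale.Agent.P267.H62 (Rep exists_rep divLB_rep)

set_option linter.unusedSectionVars false

noncomputable section

namespace Vale.Agent.P290.H470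

variable {X : Type*} [TopologicalSpace X] [ChartedSpace (Cm 2) X] [IsManifold 𝓘(ℂ, Cm 2) ω X]

/-- Two norm functions with the same divisor differ by a positive smooth function. -/
theorem ratio_of_same {D D' : EffDiv X} {h h' : X → X → ℝ} {N N' : X → ℝ} (hr : Rep D h N)
    (hr' : Rep D' h' N') (hs : Same D D') :
    ∃ ψ : X → ℝ, ContMDiff 𝓘(ℝ, Cm 2) 𝓘(ℝ) ∞ ψ ∧ ∀ x, N x = Real.exp (ψ x) * N' x := by
  obtain ⟨ψ, h1, h2, -⟩ := H365.exists_factor (N := N) (N' := N') (fun x => by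
    obtain ⟨u, hu, he⟩ := hs x
    obtain ⟨W, hW, hWo, hxW⟩ := _root_.eventually_nhds_iff.1
      (((he.and (hu.1.and hu.ne)).and (mem_nhds D x)).and (mem_nhds D' x))
    refine ⟨W, D.f x, _, _, hxW, (hr.locRep x).mono hWo (fun y hy => (hW y hy).1.2),
      H365.LocRep.unit (hr'.locRep x) hWo (fun y hy => (hW y hy).2) (w := u)
        (fun y hy => (hW y hy).1.1.2.1.mdifferentiableWithinAt)
        (fun y hy => (hW y hy).1.1.2.2) (fun y hy => (hW y hy).1.1.1)⟩)
  exact ⟨ψ, h1, fun x => by rw [h2 x, mul_comm]⟩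

section

variable [T2Space X] [CompactSpace X]

/-- rank of the ambient space of the line bundle of `C` -/
def PD.n (C : PD X) : ℕ := (H451.exists_divLB C.eff).choose

/-- the line bundle of the curve `C`, with its canonical section -/
def PD.lb (C : PD X) : H451.DivLB C.eff (Fin C.n) := (H451.exists_divLB C.eff).choose_spec.some

/-- the norm function of the curve `C`: the norm squared of the canonical section of `𝒪(C)` -/
def NC (C : PD X) : X → ℝ := fun x => ‖C.lb.s x‖ ^ 2

theorem NC_rep' (C : PD X) : Rep C.eff (fun x y => ‖C.lb.v x y‖ ^ 2) (NC C) := divLB_rep C.lb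

theorem NC_rep (C : PD X) : ∃ h : X → X → ℝ, Rep C.eff h (NC C) := ⟨_, NC_rep' C⟩

theorem NC_nf (C : PD X) : IsNormFn (Cm 2) (NC C) := by
  obtain ⟨h, hr⟩ := NC_rep C
  exact hr.isNormFn

theorem NC_zero_iff (C : PD X) (x : X) : NC C x = 0 ↔ x ∈ C.1 := by
  obtain ⟨h, hr⟩ := NC_rep C
  rw [← C.supp_eq, hr.supp]
  rfl

theorem NC_zeroSet (C : PD X) : {x | NC C x = 0} = C.1 := by
  ext x; exact NC_zero_iff C x

/-- the norm function of a divisor -/
def Nm (m : PD X →₀ ℕ) : X → ℝ := fun x => m.prod fun C k => NC C x ^ k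

theorem Nm_zero : Nm (0 : PD X →₀ ℕ) = fun _ => 1 := by
  funext x; simp [Nm]

theorem Nm_add (m m' : PD X →₀ ℕ) : Nm (m + m') = fun x => Nm m x * Nm m' x := by
  classical
  funext x
  simp only [Nm]
  rw [Finsupp.prod_add_index']
  · intro C; exact pow_zero _
  · intro C a b; exact pow_add _ _ _

theorem Nm_single (C : PD X) (k : ℕ) : Nm (Finsupp.single C k) = fun x => NC C x ^ k := by
  classical
  funext x
  simp only [Nm]
  rw [Finsupp.prod_single_index]
  exact pow_zero _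

theorem exists_rep_Nm (m : PD X →₀ ℕ) :
    ∃ (D : EffDiv X) (h : X → X → ℝ), Rep D h (Nm m) ∧ div D = m := by
  classical
  have hone : ∃ (D : EffDiv X) (h : X → X → ℝ), Rep D h (fun _ => 1) ∧ div D = 0 := by
    obtain ⟨D, h, hr⟩ := exists_rep (isNormFn_one (E := Cm 2) (M := X))
    refine ⟨D, h, hr, div_eq_zero.2 ?_⟩
    rw [hr.supp]
    ext x
    simp
  induction m using Finsupp.induction_linear with
  | zero => rw [Nm_zero]; exact hone
  | add f g hf hg =>
    obtain ⟨D, h, hr, hd⟩ := hf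
    obtain ⟨D', h', hr', hd'⟩ := hg
    obtain ⟨S, k, hS⟩ := exists_rep (hr.isNormFn.mul hr'.isNormFn)
    refine ⟨S, k, by rw [Nm_add]; exact hS, ?_⟩
    rw [div_add (hS.isSum hr hr' fun x => rfl), hd, hd']
  | single C k =>
    induction k with
    | zero =>
      obtain ⟨D, h, hr, hd⟩ := hone
      refine ⟨D, h, ?_, by rw [hd]; simp⟩
      rw [Nm_single]
      simpa using hr
    | succ k ih =>
      obtain ⟨D, h, hr, hd⟩ := ih
      obtain ⟨h', hr'⟩ := NC_rep C
      obtain ⟨S, l, hS⟩ := exists_rep (hr.isNormFn.mul hr'.isNormFn)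
      refine ⟨S, l, ?_, ?_⟩
      · have h1 : Nm (Finsupp.single C (k + 1)) = fun x => Nm (Finsupp.single C k) x * NC C x := by
          rw [Nm_single, Nm_single]
          funext x
          exact pow_succ _ _
        rw [h1]
        exact hS
      · rw [div_add (hS.isSum hr hr' fun x => rfl), hd, div_eff, ← Finsupp.single_add]

/-- **Factorisation of norm functions.** -/
theorem factor_of_rep {D : EffDiv X} {h : X → X → ℝ} {N : X → ℝ} (hr : Rep D h N) :
    ∃ ψ : X → ℝ, ContMDiff 𝓘(ℝ, Cm 2) 𝓘(ℝ) ∞ ψ ∧ ∀ x, N x = Real.exp (ψ x) * Nm (div D) x := by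
  obtain ⟨D', h', hr', hd'⟩ := exists_rep_Nm (div D)
  exact ratio_of_same hr hr' (div_eq_iff.1 hd'.symm)

theorem nf_factor {N : X → ℝ} (hN : IsNormFn (Cm 2) N) :
    ∃ (m : PD X →₀ ℕ) (ψ : X → ℝ), ContMDiff 𝓘(ℝ, Cm 2) 𝓘(ℝ) ∞ ψ ∧
      ∀ x, N x = Real.exp (ψ x) * m.prod fun C k => NC C x ^ k := by
  obtain ⟨D, h, hr⟩ := exists_rep hN
  obtain ⟨ψ, h1, h2⟩ := factor_of_rep hr
  exact ⟨div D, ψ, h1, h2⟩

end

end Vale.Agent.P290.H470
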