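import Vale.Agent.P290.H470.Prime

/-! # The divisor of an effective divisor: `div : EffDiv X → (PD X →₀ ℕ)` (helper470) -/

open Set Filter Metric Topology
open scoped Manifold ContDiff
open Vale.Agent.P267 Vale.Agent.P272.K Vale.Agent.P267.H815
open Vale.Agent.P267.H823 (RegAt Prime Rg finite_supp_diff_Rg exists_components)

set_option linter.unusedSectionVars false

noncomputable section

namespace Vale.Agent.P290.H470

variable {X : Type*} [TopologicalSpace X] [ChartedSpace (Cm 2) X] [IsManifold 𝓘(ℂ, Cm 2) ω X]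

/-- irreducible curves, as sets -/
def PD (X : Type*) [TopologicalSpace X] [ChartedSpace (Cm 2) X] [IsManifold 𝓘(ℂ, Cm 2) ω X] :=
  {C : Set X // ∃ P : EffDiv X, Prime P ∧ P.supp = C}

/-- the reduced equations of an irreducible curve -/
def PD.eff (C : PD X) : EffDiv X := C.2.choose

theorem PD.prime (C : PD X) : Prime C.eff := C.2.choose_spec.1

theorem PD.supp_eq (C : PD X) : C.eff.supp = C.1 := C.2.choose_spec.2

/-- the curve of a prime divisor -/
def PD.mk' (P : EffDiv X) (hP : Prime P) : PD X := ⟨P.supp, P, hP, rfl⟩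

theorem PD.same_mk' [T2Space X] (P : EffDiv X) (hP : Prime P) : Same P (PD.mk' P hP).eff :=
  same_of_supp_eq hP (PD.prime _) (PD.supp_eq (PD.mk' P hP)).symm

theorem PD.isClosed (C : PD X) : IsClosed C.1 := by
  rw [← C.supp_eq]; exact isClosed_supp _

theorem PD.isConnected (C : PD X) : IsConnected C.1 := by
  have h1 := C.prime.conn.closure
  have h2 : closure (C.eff.supp \ Sing C.eff) = C.1 := by
    rw [← C.supp_eq]
    exact subset_antisymm (closure_minimal sdiff_subset (isClosed_supp _)) C.prime.dense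
  rwa [h2] at h1

theorem PD.infinite [T2Space X] (C : PD X) : C.1.Infinite := by
  rw [← C.supp_eq]; exact prime_infinite C.prime

theorem PD.eq_of_subset [T2Space X] [CompactSpace X] {C C' : PD X} (h : C.1 ⊆ C'.1) : C = C' := by
  apply Subtype.ext
  rw [← C.supp_eq, ← C'.supp_eq] at h ⊢
  exact supp_eq_of_subset C.prime C'.prime h

theorem PD.inter_finite [T2Space X] [CompactSpace X] {C C' : PD X} (h : C ≠ C') :
    (C.1 ∩ C'.1).Finite := by
  rcases prime_dichotomy C.prime C'.eff with h1 | h1
  · exact absurd (PD.eq_of_subset (by rwa [C.supp_eq, C'.supp_eq] at h1)) h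
  · rwa [C.supp_eq, C'.supp_eq] at h1

/-- a smooth point of `C` which does not lie on finitely many other curves -/
theorem PD.exists_good [T2Space X] [CompactSpace X] (C : PD X) (S : Finset (PD X)) (hS : C ∉ S) :
    ∃ y, y ∈ C.eff.supp \ Sing C.eff ∧ ∀ C' ∈ S, y ∉ C'.1 := by
  classical
  have h1 : (Sing C.eff ∪ ⋃ C' ∈ S, C.1 ∩ C'.1).Finite := by
    refine C.prime.fin.union (Set.Finite.biUnion S.finite_toSet fun C' hC' => ?_)
    exact PD.inter_finite (fun h => hS (h ▸ hC'))
  obtain ⟨y, hy1, hy2⟩ := (C.infinite.sdiff h1).nonempty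
  refine ⟨y, ⟨by rw [C.supp_eq]; exact hy1, fun h => hy2 (Or.inl h)⟩, fun C' hC' h => hy2 (Or.inr ?_)⟩
  simp only [mem_iUnion]
  exact ⟨C', hC', hy1, h⟩

/-! ### divisors -/

/-- the local equation at `x` of the divisor `m` -/
def prodf (m : PD X →₀ ℕ) (x : X) : X → ℂ := fun y => m.prod fun C k => C.eff.f x y ^ k

theorem prodf_def (m : PD X →₀ ℕ) (x : X) :
    prodf m x = fun y => ∏ C ∈ m.support, (C : PD X).eff.f x y ^ m C := rfl

theorem prodf_zero (x : X) : prodf (0 : PD X →₀ ℕ) x = fun _ => 1 := by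
  funext y; simp [prodf]

theorem prodf_add (m m' : PD X →₀ ℕ) (x : X) :
    prodf (m + m') x = fun y => prodf m x y * prodf m' x y := by
  classical
  funext y
  simp only [prodf]
  rw [Finsupp.prod_add_index']
  · intro C; exact pow_zero _
  · intro C a b; exact pow_add _ _ _

theorem prodf_single (C : PD X) (k : ℕ) (x : X) :
    prodf (Finsupp.single C k) x = fun y => C.eff.f x y ^ k := by
  classical
  funext y
  simp only [prodf]
  rw [Finsupp.prod_single_index]
  exact pow_zero _

theorem holN_prodf (m : PD X →₀ ℕ) (x : X) : HolN (prodf m x) x := by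
  rw [prodf_def]
  exact holN_prod _ fun C _ => (holN_f C.eff x (C.eff.mem x)).pow _

theorem holN_mem_prodf (m : PD X →₀ ℕ) {x y : X} (hy : ∀ C ∈ m.support, y ∈ (C : PD X).eff.U x) :
    HolN (prodf m x) y := by
  rw [prodf_def]
  exact holN_prod _ fun C hC => (holN_f C.eff x (hy C hC)).pow _

theorem eventually_mem_U (m : PD X →₀ ℕ) (x : X) :
    ∀ᶠ y in 𝓝 x, ∀ C ∈ m.support, y ∈ (C : PD X).eff.U x := by
  rw [Filter.eventually_all_finset]
  intro C _
  exact mem_nhds C.eff x

theorem assoc_prodf (m : PD X →₀ ℕ) {x y z : X} (hx : ∀ C ∈ m.support, z ∈ (C : PD X).eff.U x)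
    (hy : ∀ C ∈ m.support, z ∈ (C : PD X).eff.U y) : Assoc (prodf m x) (prodf m y) z := by
  rw [prodf_def, prodf_def]
  exact Assoc.prod _ fun C hC => Assoc.pow (assoc_f C.eff (hx C hC) (hy C hC)) _

theorem prodf_eq_zero_iff (m : PD X →₀ ℕ) (x y : X) :
    prodf m x y = 0 ↔ ∃ C ∈ m.support, (C : PD X).eff.f x y = 0 := by
  simp only [prodf, Finsupp.prod]
  rw [Finset.prod_eq_zero_iff]
  constructor
  · rintro ⟨C, hC, h⟩
    exact ⟨C, hC, (pow_eq_zero_iff (Finsupp.mem_support_iff.1 hC)).1 h⟩
  · rintro ⟨C, hC, h⟩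
    exact ⟨C, hC, by rw [h]; exact zero_pow (Finsupp.mem_support_iff.1 hC)⟩

/-- every finite combination of curves is an effective divisor -/
theorem exists_ofPD (m : PD X →₀ ℕ) : ∃ D : EffDiv X, ∀ x, Assoc (D.f x) (prodf m x) x := by
  classical
  have hone : ∃ D : EffDiv X, ∀ x, Assoc (D.f x) (fun _ => 1) x := by
    obtain ⟨D, hD⟩ := exists_effDiv (X := X) (fun _ _ => 1) (fun x => holN_const 1 x)
      (fun x => (Eventually.of_forall fun _ => one_ne_zero).frequently)
      (fun x => Eventually.of_forall fun y => Assoc.refl _ _)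
    exact ⟨D, fun x => by rw [hD]; exact Assoc.refl _ _⟩
  induction m using Finsupp.induction_linear with
  | zero =>
    obtain ⟨D, hD⟩ := hone
    exact ⟨D, fun x => by rw [prodf_zero]; exact hD x⟩
  | add f g hf hg =>
    obtain ⟨D, hD⟩ := hf
    obtain ⟨D', hD'⟩ := hg
    obtain ⟨S, hS⟩ := exists_sum D D'
    refine ⟨S, fun x => ?_⟩
    rw [prodf_add]
    exact (hS x).trans ((hD x).mul (hD' x))
  | single C k =>
    induction k with
    | zero =>
      obtain ⟨D, hD⟩ := hone
      refine ⟨D, fun x => ?_⟩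
      rw [prodf_single]
      simpa using hD x
    | succ k ih =>
      obtain ⟨D, hD⟩ := ih
      obtain ⟨S, hS⟩ := exists_sum D C.eff
      refine ⟨S, fun x => ?_⟩
      have h1 := (hS x).trans ((hD x).mul (Assoc.refl (C.eff.f x) x))
      rw [prodf_single] at h1 ⊢
      exact h1.trans (Assoc.of_eventuallyEq (Eventually.of_forall fun z => (pow_succ _ _).symm))

theorem prodf_frequently (m : PD X →₀ ℕ) (x : X) : ∃ᶠ y in 𝓝 x, prodf m x y ≠ 0 := by
  obtain ⟨D, hD⟩ := exists_ofPD m
  exact (hD x).symm.frequently (D.ne x x (D.mem x))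

/-- The order of the divisor `m` along `C` is seen at a good point. -/
theorem regAt_prodf (m : PD X →₀ ℕ) (C : PD X) {y : X}
    (hy' : ∀ C' ∈ m.support, C' ≠ C → y ∉ (C' : PD X).1) :
    ∃ v, UnitN v y ∧ ∀ᶠ z in 𝓝 y, prodf m y z = v z * C.eff.f y z ^ m C := by
  classical
  refine ⟨prodf (m.erase C) y, ⟨holN_prodf _ y, ?_⟩, Eventually.of_forall fun z => ?_⟩
  · intro h
    obtain ⟨C', hC', h0⟩ := (prodf_eq_zero_iff _ _ _).1 h
    rw [Finsupp.support_erase, Finset.mem_erase] at hC'
    apply hy' C' hC'.2 hC'.1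
    rw [← C'.supp_eq]
    exact h0
  · have h1 : m = m.erase C + Finsupp.single C (m C) := by
      rw [add_comm, Finsupp.single_add_erase]
    have h2 : prodf m y z = prodf (m.erase C + Finsupp.single C (m C)) y z := by rw [← h1]
    rw [h2, prodf_add, prodf_single]

/-- uniqueness of the multiplicities -/
theorem prodf_injective [T2Space X] [CompactSpace X] {m m' : PD X →₀ ℕ}
    (h : ∀ x, Assoc (prodf m x) (prodf m' x) x) : m = m' := by
  classical
  ext C
  obtain ⟨y, hy, hy'⟩ := C.exists_good ((m.support ∪ m'.support).erase C) (by simp)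
  obtain ⟨v, hv, h1⟩ := regAt_prodf m C (fun C' h1 h2 => hy' C' (by simp [h1, h2] ))
  obtain ⟨v', hv', h2⟩ := regAt_prodf m' C (fun C' h1 h2 => hy' C' (by simp [h1, h2] ))
  obtain ⟨u, hu, h3⟩ := h y
  refine pow_unique' hv (u' := fun z => u z * v' z) (hu.mul hv') (holN_f C.eff y (C.eff.mem y))
    hy.1 (C.eff.ne y y (C.eff.mem y)) ?_
  filter_upwards [h1, h2, h3] with z hz1 hz2 hz3
  rw [← hz1, hz3, hz2, mul_assoc]

theorem exists_div [T2Space X] [CompactSpace X] (D : EffDiv X) :
    ∃ m : PD X →₀ ℕ, ∀ x, Assoc (D.f x) (prodf m x) x := by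
  classical
  obtain ⟨n, C, m, -, hP, hD, -, -⟩ := exists_components D
  refine ⟨∑ c, Finsupp.single (PD.mk' (C c) (hP c)) (m c), fun x => (hD x).trans ?_⟩
  have h1 : ∀ s : Finset (Fin n), prodf (∑ c ∈ s, Finsupp.single (PD.mk' (C c) (hP c)) (m c)) x =
      fun z => ∏ c ∈ s, (PD.mk' (C c) (hP c)).eff.f x z ^ m c := by
    intro s
    induction s using Finset.induction_on with
    | empty => rw [Finset.sum_empty, prodf_zero]; funext z; simp
    | insert a s ha ih =>
      rw [Finset.sum_insert ha, prodf_add, prodf_single, ih]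
      funext z
      rw [Finset.prod_insert ha]
  rw [h1]
  exact Assoc.prod _ fun c _ => Assoc.pow (PD.same_mk' (C c) (hP c) x) _

section div

variable [T2Space X] [CompactSpace X]

/-- the divisor of an effective divisor -/
def div (D : EffDiv X) : PD X →₀ ℕ := (exists_div D).choose

theorem div_spec (D : EffDiv X) (x : X) : Assoc (D.f x) (prodf (div D) x) x :=
  (exists_div D).choose_spec x

theorem div_unique {D : EffDiv X} {m : PD X →₀ ℕ} (h : ∀ x, Assoc (D.f x) (prodf m x) x) :
    div D = m :=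
  prodf_injective fun x => (div_spec D x).symm.trans (h x)

theorem div_surj (m : PD X →₀ ℕ) : ∃ D : EffDiv X, div D = m := by
  obtain ⟨D, hD⟩ := exists_ofPD m
  exact ⟨D, div_unique hD⟩

theorem div_add {D D₁ D₂ : EffDiv X} (h : IsSum D D₁ D₂) : div D = div D₁ + div D₂ := by
  refine div_unique fun x => ?_
  rw [prodf_add]
  exact (h x).trans ((div_spec D₁ x).mul (div_spec D₂ x))

theorem div_eq_iff {D D' : EffDiv X} : div D = div D' ↔ Same D D' := by
  constructor
  · intro h x
    have h1 := div_spec D x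
    rw [h] at h1
    exact h1.trans (div_spec D' x).symm
  · intro h
    exact div_unique fun x => (h x).trans (div_spec D' x)

theorem isSum_of_div {D D₁ D₂ : EffDiv X} (h : div D = div D₁ + div D₂) : IsSum D D₁ D₂ := by
  intro x
  have h1 := div_spec D x
  rw [h, prodf_add] at h1
  exact h1.trans ((div_spec D₁ x).mul (div_spec D₂ x)).symm

theorem div_le_iff {D D₁ : EffDiv X} : div D₁ ≤ div D ↔ ∃ D₂, IsSum D D₁ D₂ := by
  constructor
  · intro h
    obtain ⟨D₂, hD₂⟩ := div_surj (div D - div D₁)
    refine ⟨D₂, isSum_of_div ?_⟩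
    rw [hD₂, add_tsub_cancel_of_le h]
  · rintro ⟨D₂, h⟩
    rw [div_add h]
    exact le_self_add

theorem mem_supp_div (D : EffDiv X) (x : X) :
    x ∈ D.supp ↔ ∃ C ∈ (div D).support, x ∈ (C : PD X).1 := by
  have h1 : x ∈ D.supp ↔ prodf (div D) x x = 0 := (div_spec D x).zero_iff
  rw [h1, prodf_eq_zero_iff]
  refine exists_congr fun C => and_congr_right fun _ => ?_
  rw [← C.supp_eq]
  exact Iff.rfl

theorem supp_eq_div (D : EffDiv X) : D.supp = ⋃ C ∈ (div D).support, (C : PD X).1 := by
  ext x
  rw [mem_supp_div]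
  simp

theorem div_eq_zero {D : EffDiv X} : div D = 0 ↔ D.supp = ∅ := by
  constructor
  · intro h
    ext x
    rw [mem_supp_div, h]
    simp
  · intro h
    rw [← Finsupp.support_eq_empty, Finset.eq_empty_iff_forall_notMem]
    intro C hC
    obtain ⟨y, hy⟩ := C.infinite.nonempty
    have : y ∈ D.supp := (mem_supp_div D y).2 ⟨C, hC, hy⟩
    rw [h] at this
    exact this

theorem div_prime {P : EffDiv X} (hP : Prime P) : div P = Finsupp.single (PD.mk' P hP) 1 := by
  refine div_unique fun x => ?_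
  rw [prodf_single]
  refine (PD.same_mk' P hP x).trans (Assoc.of_eventuallyEq ?_)
  exact Eventually.of_forall fun z => (pow_one _).symm

theorem div_eff (C : PD X) : div C.eff = Finsupp.single C 1 := by
  rw [div_prime C.prime]
  congr 1
  exact Subtype.ext C.supp_eq

theorem mem_div_iff {D : EffDiv X} {C : PD X} : C ∈ (div D).support ↔ C.1 ⊆ D.supp := by
  constructor
  · intro h x hx
    exact (mem_supp_div D x).2 ⟨C, h, hx⟩
  · intro h
    by_contra hC
    obtain ⟨y, hy, hy'⟩ := C.exists_good (div D).support hC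
    have h1 : y ∈ D.supp := h (by rw [← C.supp_eq]; exact hy.1)
    obtain ⟨C', hC', h2⟩ := (mem_supp_div D y).1 h1
    exact hy' C' hC' h2

theorem notMem_div_iff {D : EffDiv X} {C : PD X} :
    C ∉ (div D).support ↔ (C.1 ∩ D.supp).Finite := by
  constructor
  · intro h
    rcases prime_dichotomy C.prime D with h1 | h1
    · rw [C.supp_eq] at h1
      exact absurd (mem_div_iff.2 h1) h
    · rwa [C.supp_eq] at h1
  · intro h hC
    rw [inter_eq_self_of_subset_left (mem_div_iff.1 hC)] at h
    exact C.infinite h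

/-- divisors without common curve meet in finitely many points -/
theorem common_finite {D D' : EffDiv X} (h : Disjoint (div D).support (div D').support) :
    (D.supp ∩ D'.supp).Finite := by
  rw [supp_eq_div D, iUnion₂_inter]
  refine Set.Finite.biUnion (div D).support.finite_toSet fun C hC => ?_
  exact notMem_div_iff.1 (Finset.disjoint_left.1 h hC)

theorem disjoint_of_common_finite {D D' : EffDiv X} (h : (D.supp ∩ D'.supp).Finite) :
    Disjoint (div D).support (div D').support := by
  rw [Finset.disjoint_left]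
  intro C hC hC'
  exact C.infinite (h.subset (subset_inter (mem_div_iff.1 hC) (mem_div_iff.1 hC')))

end div

end Vale.Agent.P290.H470
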