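import Vale.Agent.P290.H445.Coh
import Vale.Agent.P267.H815.H0
import Vale.Agent.P267.H365.Dual
import Vale.Agent.P267.H399.LBCurv
import Vale.Agent.P290.H470.Div

/-! # Irreducible curves on a K3 surface have self-intersection at least `-2` (helper470) -/

open Set Filter Metric Topology
open scoped Manifold ContDiff
open Vale.Agent.P267 Vale.Agent.P267.FL Vale.Agent.P267.RR
open Vale.Agent.P267.H823 (Prime)

set_option linter.unusedSectionVars false

noncomputable section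

namespace Vale.Agent.P290.H470

section general

variable {X : Type*} [TopologicalSpace X] [ChartedSpace C2 X] [IsManifold 𝓘(ℂ, C2) ω X]
variable [CompactSpace X] {ι : Type} [Fintype ι] [DecidableEq ι] {D : EffDiv X}

/-- `H¹(X, 𝒪(-D)) = 0` for irreducible `D` if `H^{0,1} = 0`. -/
theorem z1_le_b1 (A : H451.DivLB D ι) (hP : Prime D)
    (h01 : ∀ a : X → Fin 2 → ℂ, Reg1 ∞ 0 a → (∀ x, dbar1 0 a x = 0) →
      ∃ u : X → ℂ, Reg0 ∞ 0 u ∧ ∀ x i, dbar0 0 u x i = a x i) :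
    Z1 A.L.dual (-A.a) 0 ≤ B1 A.L.dual (-A.a) 0 := by
  intro w hw
  obtain ⟨hw1, hw2⟩ := (mem_Z1 _ _ _).1 hw
  have hmem := H365.pair1_mem A 0 hw1
  have hcl : ∀ x, dbar1 0 (H365.pair1 A w) x = 0 := by
    intro x
    rw [H365.dbar1_pair A 0 hw1, hw2]
    simp [H365.pair0, H365.pr]
  obtain ⟨u, hu, hu2⟩ := h01 _ hmem.1 hcl
  have hu3 : dbar0 0 u = H365.pair1 A w := by
    funext x i; exact hu2 x i
  have hI1 : H815.I1 D (dbar0 0 u) := by
    intro x
    obtain ⟨β, h1, h2⟩ := hmem.2 x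
    refine ⟨β, ?_⟩
    filter_upwards [h1, h2] with y hy1 hy2
    refine ⟨hy1, ?_⟩
    rw [hu3]
    funext p
    exact hy2 p
  obtain ⟨c, hc⟩ := H815.h0_const D hP.conn.isPreconnected hP.fin.countable hP.dense hu hI1
  have hreg : Reg0 ∞ 0 (fun x => u x - c) := by
    have h1 : Reg0 ∞ 0 (fun _ : X => -c) := by
      intro e he
      rw [LB.loc0_zero]
      exact contDiffOn_const
    have h2 := Reg0.add hu h1
    have h3 : (fun x => u x - c) = u + fun _ => -c := by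
      funext x
      simp [sub_eq_add_neg]
    rw [h3]
    exact h2
  have hI0 : (fun x => u x - c) ∈ H365.I0 D 0 := by
    refine ⟨hreg, fun x => ?_⟩
    obtain ⟨b, hb⟩ := hc x
    exact ⟨b, hb.mono fun y hy => hy.1, hb.mono fun y hy => hy.2⟩
  obtain ⟨v, hv, hv2⟩ := H365.pair0_surj A 0 hI0
  have h4 := H365.dbar0_pair A 0 hv
  have h5 : dbar0 0 (fun x => u x - c) = dbar0 0 u := by
    funext x i
    simp only [dbar0]
    have h6 : loc0 0 (chartAt C2 x) (fun x => u x - c) =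
        fun z => loc0 0 (chartAt C2 x) u z - c := by
      funext z
      simp [LB.loc0_zero]
    rw [h6]
    simp only [dzb]
    rw [fderiv_sub_const]
  rw [hv2, h5, hu3] at h4
  rw [mem_B1]
  refine ⟨v, hv, ?_⟩
  have hd : A.L.dual.db0 (-A.a) 0 v ∈ A1 A.L.dual 0 :=
    ⟨LB.reg1_db0 (LB.IsHol.dual A.hol).smooth hv.1, LB.Sec.db0 A.L.dual hv.2⟩
  have h7 : w + (-1 : ℂ) • A.L.dual.db0 (-A.a) 0 v ∈ A1 A.L.dual 0 :=
    (A1 A.L.dual 0).add_mem hw1 ((A1 A.L.dual 0).smul_mem _ hd)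
  have h8 := H365.pair1_inj A 0 h7 (by
    rw [H365.pair1_add, H365.pair1_smul, h4]
    funext x p
    simp)
  funext x i
  have h9 := congrFun (congrFun h8 x) i
  simp only [Pi.add_apply, neg_smul, one_smul, Pi.zero_apply] at h9
  exact (add_neg_eq_zero.1 h9).symm

end general

section K3

variable (X : All.K3) {ι : Type} [Fintype ι] [DecidableEq ι]

theorem z1_le_b1_one (L : LB X.X ι) (a : X.X → Fin 2 → ℂ) (κ : ℤ) (h : Z1 L a κ ≤ B1 L a κ) :
    Z1 L a (1 + κ) ≤ B1 L a (1 + κ) := by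
  intro w hw
  obtain ⟨⟨h1, h2⟩, h3⟩ := (mem_Z1 _ _ _).1 hw
  have h4 : Reg1 ∞ (-1 + (1 + κ)) (fun x i => H445.OmI X x • w x i) :=
    H445.Reg1.smul' (H445.Reg0_OmI X) h1
  rw [neg_add_cancel_left] at h4
  have h5 : (fun x i => H445.OmI X x • w x i) ∈ Z1 L a κ := by
    refine (mem_Z1 L a κ).2 ⟨⟨h4, fun x i => ?_⟩, ?_⟩
    · rw [H445.act_smul', h2 x i]
    · funext x
      have h6 := H445.db1_mul X L a (H445.HolOn_OmI X) h1 x
      rw [neg_add_cancel_left, h3] at h6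
      exact h6.trans (by simp)
  obtain ⟨v, ⟨hv1, hv2⟩, hv3⟩ := (mem_B1 L a κ).1 (h h5)
  refine (mem_B1 L a (1 + κ)).2 ⟨fun x => H445.Om X x • v x, ⟨H445.Reg0.smul' (H445.Reg0_Om X) hv1,
    fun x => ?_⟩, ?_⟩
  · rw [H445.act_smul', hv2 x]
  · funext x i
    have h6 := H445.db0_mul X L a (H445.HolOn_Om X) hv1 x i
    rw [h6, congrFun (congrFun hv3 x) i, smul_smul, H445.Om_mul, one_smul]

theorem h1_zero_of_le {X : Type*} [TopologicalSpace X] [ChartedSpace C2 X] {ι : Type} [Fintype ι]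
    [DecidableEq ι] (L : LB X ι) (a : X → Fin 2 → ℂ) (κ : ℤ) (h : Z1 L a κ ≤ B1 L a κ) :
    h1 L a κ = 0 := by
  rw [h1]
  have : Subsingleton (RR.H1 L a κ) := by
    rw [Submodule.Quotient.subsingleton_iff]
    rw [Submodule.comap_subtype_eq_top]
    exact h
  exact Module.finrank_zero_of_subsingleton

/-- **An irreducible curve on a K3 surface has self-intersection at least `-2`.** -/
theorem self_ge (hF : FiniteStmt X.X) (hS : SerreStmt X.X) (hR : RRStmt X.X) (h : H445.H01 X)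
    {D : EffDiv X.X} (hP : Prime D) (A : H451.DivLB D ι) :
    ∃ n : ℤ, isec A.L A.L = 2 * n ∧ -1 ≤ n := by
  obtain ⟨n, h1, -, h2⟩ := H445.rr_ineq X hS hR h A.L A.hol
  refine ⟨n, h1, ?_⟩
  have h3 : RR.h1 A.L A.a 0 = 0 := by
    rw [(hS ι A.L A.a A.hol 0).2.1]
    have h4 : (1 : ℤ) - 0 = 1 + 0 := by norm_num
    rw [h4]
    exact h1_zero_of_le _ _ _ (z1_le_b1_one X _ _ _ (z1_le_b1 A hP h))
  have h4 : 1 ≤ h0 A.L A.a 0 := by
    have h5 := (hF ι A.L A.a A.hol 0).1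
    have h6 : A.s ∈ H0 A.L A.a 0 := (mem_H0 _ _ _).2 ⟨⟨A.s_reg, A.s_sec⟩, by
      funext x i; exact A.s_hol x i⟩
    have h7 : Nontrivial (H0 A.L A.a 0) := by
      refine ⟨⟨⟨A.s, h6⟩, 0, fun h8 => ?_⟩⟩
      have h9 : A.s = 0 := congrArg Subtype.val h8
      obtain ⟨x, -⟩ := hP.nonempty
      have h10 : ∃ᶠ z in 𝓝 x, D.f x z ≠ 0 := D.ne x x (D.mem x)
      obtain ⟨z, hz, hzU⟩ := (h10.and_eventually (H815.mem_nhds D x)).exists
      apply (H365.s_ne_iff A hzU).2 hz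
      rw [h9]
      rfl
    exact Module.finrank_pos
  rw [h3] at h2
  have h5 : (0 : ℤ) ≤ h0 A.L.dual (-A.a) 0 := Int.natCast_nonneg _
  have h6 : (1 : ℤ) ≤ h0 A.L A.a 0 := by exact_mod_cast h4
  push_cast at h2
  linarith

end K3

end Vale.Agent.P290.H470
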