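import Vale.Agent.P267.H815.Div
import Vale.Agent.P267.H757.Div
import Vale.Agent.P290.H470.Germ

/-! # Germs of holomorphic functions on a complex surface (helper470) -/

open Set Filter Metric Topology
open scoped Manifold ContDiff
open Vale.Agent.P267 Vale.Agent.P272.K Vale.Agent.P267.H815

noncomputable section

namespace Vale.Agent.P290.H470

variable {X : Type*} [TopologicalSpace X] [ChartedSpace (Cm 2) X]

/-- nonzero differential -/
def Dne (f : X → ℂ) (x : X) : Prop := mfderiv 𝓘(ℂ, Cm 2) 𝓘(ℂ) f x ≠ 0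

/-- the germ of `f` at `x` in the preferred chart -/
def ger (f : X → ℂ) (x : X) : Cm 2 → ℂ := f ∘ (chartAt (Cm 2) x).symm

theorem ev_iff {x : X} {P : X → Prop} :
    (∀ᶠ z in 𝓝 (chartAt (Cm 2) x x), P ((chartAt (Cm 2) x).symm z)) ↔ ∀ᶠ y in 𝓝 x, P y :=
  (chartAt (Cm 2) x).eventually_nhds' P (mem_chart_source _ x)

theorem ev_iff' {x : X} {P : X → Prop} :
    (∀ᶠ z in 𝓝[≠] (chartAt (Cm 2) x x), P ((chartAt (Cm 2) x).symm z)) ↔
      ∀ᶠ y in 𝓝[≠] x, P y := by
  rw [eventually_nhdsWithin_iff, eventually_nhdsWithin_iff,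
    ← ev_iff (x := x) (P := fun y => y ∈ ({x}ᶜ : Set X) → P y)]
  have h1 : ∀ᶠ z in 𝓝 (chartAt (Cm 2) x x), z ∈ (chartAt (Cm 2) x).target :=
    (chartAt (Cm 2) x).open_target.mem_nhds (mem_chart_target _ x)
  constructor
  · intro h
    filter_upwards [h, h1] with z hz1 hz2 hz3
    apply hz1
    rintro rfl
    apply hz3
    rw [mem_singleton_iff, (chartAt (Cm 2) x).left_inv (mem_chart_source _ x)]
  · intro h
    filter_upwards [h, h1] with z hz1 hz2 hz3
    apply hz1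
    intro hcon
    apply hz3
    rw [mem_singleton_iff] at hcon ⊢
    have h5 := (chartAt (Cm 2) x).right_inv hz2
    rw [hcon] at h5
    exact h5.symm

theorem freq_iff {x : X} {P : X → Prop} :
    (∃ᶠ z in 𝓝 (chartAt (Cm 2) x x), P ((chartAt (Cm 2) x).symm z)) ↔ ∃ᶠ y in 𝓝 x, P y :=
  not_congr (ev_iff (P := fun y => ¬ P y))

theorem freq_iff' {x : X} {P : X → Prop} :
    (∃ᶠ z in 𝓝[≠] (chartAt (Cm 2) x x), P ((chartAt (Cm 2) x).symm z)) ↔ ∃ᶠ y in 𝓝[≠] x, P y :=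
  not_congr (ev_iff' (P := fun y => ¬ P y))

@[simp] theorem ger_self (f : X → ℂ) (x : X) : ger f x (chartAt (Cm 2) x x) = f x := by
  simp [ger]

theorem neBot_punctured (x : X) : (𝓝[≠] x).NeBot := by
  constructor
  intro hbot
  have h1 : ∀ᶠ _ in 𝓝[≠] x, False := by rw [hbot]; exact eventually_bot
  have h2 := ev_iff'.2 h1
  have h3 : (𝓝[≠] (chartAt (Cm 2) x x)).NeBot := inferInstance
  exact h3.ne (by rwa [← eventually_false_iff_eq_bot])

section mfd

variable [IsManifold 𝓘(ℂ, Cm 2) ω X]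

theorem fderiv_ger_iff {f : X → ℂ} {x : X} (hf : MDifferentiableAt 𝓘(ℂ, Cm 2) 𝓘(ℂ) f x) :
    fderiv ℂ (ger f x) (chartAt (Cm 2) x x) ≠ 0 ↔ Dne f x :=
  (mfderiv_ne_zero_iff x (mem_chart_source _ x) hf).symm

theorem an_iff {f : X → ℂ} {x : X} :
    HolN f x ↔ AnalyticAt ℂ (ger f x) (chartAt (Cm 2) x x) :=
  holN_iff x (mem_chart_source _ x)

theorem holN_prod {ι : Type*} (s : Finset ι) {f : ι → X → ℂ} {x : X}
    (hf : ∀ i ∈ s, HolN (f i) x) : HolN (fun y => ∏ i ∈ s, f i y) x := by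
  classical
  induction s using Finset.induction_on with
  | empty => simpa using holN_const (X := X) 1 x
  | insert a s ha ih =>
    simp only [Finset.prod_insert ha]
    exact (hf a (Finset.mem_insert_self a s)).mul
      (ih fun i hi => hf i (Finset.mem_insert_of_mem hi))

/-- the dichotomy along a smooth curve -/
theorem dichotomy {l g : X → ℂ} {p : X} (hl : HolN l p) (hp : l p = 0) (hd : Dne l p)
    (hg : HolN g p) :
    (∀ᶠ y in 𝓝 p, l y = 0 → g y = 0) ∨ (∀ᶠ y in 𝓝[≠] p, l y = 0 → g y ≠ 0) := by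
  have h1 := curve_dichotomy (an_iff.1 hl) (by simpa using hp) ((fderiv_ger_iff hl.self).2 hd)
    (an_iff.1 hg)
  rcases h1 with h1 | h1
  · left
    exact ev_iff.1 h1
  · right
    exact ev_iff'.1 h1

theorem zero_frequently {l : X → ℂ} {p : X} (hl : HolN l p) (hp : l p = 0) (hd : Dne l p) :
    ∃ᶠ y in 𝓝[≠] p, l y = 0 := by
  have h1 := curve_frequently (an_iff.1 hl) (by simpa using hp) ((fderiv_ger_iff hl.self).2 hd)
  exact freq_iff'.1 h1

/-- Hartogs at a point -/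
theorem an_extend {u : X → ℂ} {p : X} (hu : ∀ᶠ y in 𝓝[≠] p, HolN u y) :
    ∃ w : X → ℂ, HolN w p ∧ ∀ᶠ y in 𝓝[≠] p, w y = u y := by
  have h3 : ∀ᶠ z in 𝓝 (chartAt (Cm 2) p p), z ∈ (chartAt (Cm 2) p).target :=
    (chartAt (Cm 2) p).open_target.mem_nhds (mem_chart_target _ p)
  have h1 : ∀ᶠ z in 𝓝[≠] (chartAt (Cm 2) p p), DifferentiableAt ℂ (ger u p) z := by
    filter_upwards [ev_iff'.2 hu, h3.filter_mono nhdsWithin_le_nhds] with z hz1 hz2
    have h4 := (holN_iff p ((chartAt (Cm 2) p).map_target hz2)).1 hz1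
    rw [(chartAt (Cm 2) p).right_inv hz2] at h4
    exact h4.differentiableAt
  obtain ⟨w, hw1, hw2⟩ := hartogs h1
  refine ⟨w ∘ chartAt (Cm 2) p, ?_, ?_⟩
  · rw [an_iff]
    refine hw1.congr ?_
    filter_upwards [h3] with z hz
    simp [ger, (chartAt (Cm 2) p).right_inv hz]
  · rw [← ev_iff']
    filter_upwards [hw2, h3.filter_mono nhdsWithin_le_nhds] with z hz1 hz2
    simp only [Function.comp, (chartAt (Cm 2) p).right_inv hz2, hz1, ger]

theorem zero_not_isolated {F : X → ℂ} {p : X} (hF : HolN F p) (hp : F p = 0) :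
    ∃ᶠ y in 𝓝[≠] p, F y = 0 := by
  intro hcon
  apply not_isolated (an_iff.1 hF) (by simpa using hp)
  exact ev_iff'.2 hcon

theorem vanish_of_mul' {F G q u : X → ℂ} {p : X} {m : ℕ} (hF : HolN F p) (hq : HolN q p)
    (hqp : q p = 0) (hd : Dne q p) (hu : UnitN u p)
    (h : ∀ᶠ y in 𝓝 p, F y * G y = u y * q y ^ m) (hFp : F p = 0) :
    ∀ᶠ y in 𝓝 p, q y = 0 → F y = 0 := by
  have h1 := vanish_of_mul (G := ger G p) (m := m) (an_iff.1 hF) (an_iff.1 hq)
    (by simpa using hqp) ((fderiv_ger_iff hq.self).2 hd) (an_iff.1 hu.1).continuousAt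
    (by simpa using hu.2) (ev_iff.2 h) (by simpa using hFp)
  exact ev_iff.1 h1

theorem pow_unique' {u u' l : X → ℂ} {p : X} {m m' : ℕ} (hu : UnitN u p) (hu' : UnitN u' p)
    (hl : HolN l p) (hlp : l p = 0) (hne : ∃ᶠ y in 𝓝 p, l y ≠ 0)
    (h : ∀ᶠ y in 𝓝 p, u y * l y ^ m = u' y * l y ^ m') : m = m' :=
  pow_unique (an_iff.1 hu.1).continuousAt (by simpa using hu.2) (an_iff.1 hu'.1).continuousAt
    (by simpa using hu'.2) (an_iff.1 hl).continuousAt (by simpa using hlp)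
    (freq_iff.2 hne) (ev_iff.2 h)

/-! ### equality up to units, divisibility -/

theorem Assoc.pow {f g : X → ℂ} {x : X} (h : Assoc f g x) (n : ℕ) :
    Assoc (fun y => f y ^ n) (fun y => g y ^ n) x := by
  obtain ⟨u, hu, h⟩ := h
  refine ⟨fun y => u y ^ n, ⟨hu.1.pow n, pow_ne_zero _ hu.2⟩, ?_⟩
  filter_upwards [h] with y hy1
  rw [hy1, mul_pow]

theorem Assoc.prod {ι : Type*} (s : Finset ι) {f g : ι → X → ℂ} {x : X}
    (h : ∀ i ∈ s, Assoc (f i) (g i) x) :
    Assoc (fun y => ∏ i ∈ s, f i y) (fun y => ∏ i ∈ s, g i y) x := by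
  classical
  induction s using Finset.induction_on with
  | empty => simpa using Assoc.refl (fun _ => (1 : ℂ)) x
  | insert a s ha ih =>
    simp only [Finset.prod_insert ha]
    exact (h a (Finset.mem_insert_self a s)).mul
      (ih fun i hi => h i (Finset.mem_insert_of_mem hi))

theorem assoc_of_ne {f g : X → ℂ} {x : X} (hf : HolN f x) (hg : HolN g x) (hfx : f x ≠ 0)
    (hgx : g x ≠ 0) : Assoc f g x := by
  refine ⟨fun y => f y / g y, ⟨hf.div hg hgx, div_ne_zero hfx hgx⟩, ?_⟩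
  filter_upwards [hg.continuousAt.eventually_ne hgx] with y hy
  rw [div_mul_cancel₀ _ hy]

/-- `g` divides `f` near `x` -/
def DvdAt (g f : X → ℂ) (x : X) : Prop :=
  ∃ u : X → ℂ, HolN u x ∧ ∀ᶠ y in 𝓝 x, f y = u y * g y

/-- Hartogs for divisibility -/
theorem dvdAt_extend [T2Space X] {f g : X → ℂ} {x : X} (hf : HolN f x) (hg : HolN g x)
    (hne : ∀ᶠ y in 𝓝 x, ∃ᶠ z in 𝓝 y, g z ≠ 0) (h : ∀ᶠ y in 𝓝[≠] x, DvdAt g f y) :
    DvdAt g f x := by
  classical
  set u : X → ℂ := fun y => if hy : DvdAt g f y then hy.choose y else 0 with hu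
  have key : ∀ y, (∀ᶠ z in 𝓝 y, DvdAt g f z) → (∀ᶠ z in 𝓝 y, ∃ᶠ w in 𝓝 z, g w ≠ 0) →
      HolN u y ∧ f y = u y * g y := by
    intro y hy hney
    obtain ⟨v, hv, hv2⟩ := hy.self_of_nhds
    have h1 : ∀ᶠ z in 𝓝 y, u z = v z := by
      filter_upwards [hy, hv.eventually, eventually_eventually_nhds.2 hv2, hney] with z hz1 hz2 hz3 hz4
      have h2 := hz1.choose_spec
      have h3 : u z = hz1.choose z := by simp only [hu, dif_pos hz1]
      rw [h3]
      refine eq_of_mul_eq h2.1.continuousAt hz2.continuousAt hz4 ?_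
      filter_upwards [hz3, h2.2] with w hw1 hw2
      rw [← hw1, ← hw2]
    refine ⟨hv.congr h1, ?_⟩
    rw [h1.self_of_nhds]
    exact hv2.self_of_nhds
  have h2 : ∀ᶠ y in 𝓝[≠] x, HolN u y ∧ f y = u y * g y := by
    rw [eventually_nhdsWithin_iff] at h ⊢
    obtain ⟨V, hV, hVo, hxV⟩ := _root_.eventually_nhds_iff.1 (h.and hne)
    filter_upwards [hVo.mem_nhds hxV] with y hy hyx
    refine key y ?_ ?_
    · filter_upwards [hVo.mem_nhds hy, isOpen_compl_singleton.mem_nhds hyx] with z hz1 hz2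
      exact (hV z hz1).1 hz2
    · filter_upwards [hVo.mem_nhds hy] with z hz1
      exact (hV z hz1).2
  obtain ⟨w, hw, hw2⟩ := an_extend (h2.mono fun y hy => hy.1)
  refine ⟨w, hw, ?_⟩
  have h3 : ∀ᶠ y in 𝓝[≠] x, f y = w y * g y := by
    filter_upwards [h2, hw2] with y hy1 hy2
    rw [hy2, hy1.2]
  have h4 : f x = w x * g x := by
    have : (𝓝[≠] x).NeBot := neBot_punctured x
    have h5 : Tendsto f (𝓝[≠] x) (𝓝 (f x)) := hf.continuousAt.tendsto.mono_left nhdsWithin_le_nhds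
    have h6 : Tendsto (fun y => w y * g y) (𝓝[≠] x) (𝓝 (w x * g x)) :=
      (hw.continuousAt.mul hg.continuousAt).tendsto.mono_left nhdsWithin_le_nhds
    exact tendsto_nhds_unique (h5.congr' h3) h6
  rw [eventually_nhdsWithin_iff] at h3
  filter_upwards [h3] with y hy
  by_cases hyx : y = x
  · rw [hyx]; exact h4
  · exact hy hyx

/-- mutual divisibility -/
theorem assoc_of_dvdAt {f g : X → ℂ} {x : X} (h : DvdAt g f x) (h' : DvdAt f g x)
    (hne : ∃ᶠ y in 𝓝 x, g y ≠ 0) : Assoc f g x := by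
  obtain ⟨u, hu, h⟩ := h
  obtain ⟨v, hv, h'⟩ := h'
  have h1 : u x * v x = 1 := by
    refine eq_of_mul_eq (f := g) (hu.mul hv).continuousAt
      (holN_const (X := X) 1 x).continuousAt hne ?_
    filter_upwards [h, h'] with y hy1 hy2
    rw [one_mul, mul_comm (u y), mul_assoc, ← hy1, ← hy2]
  exact ⟨u, ⟨hu, left_ne_zero_of_mul_eq_one h1⟩, h⟩

omit [IsManifold 𝓘(ℂ, Cm 2) ω X] in
theorem Assoc.dvdAt {f g : X → ℂ} {x : X} (h : Assoc f g x) : DvdAt g f x := by
  obtain ⟨u, hu, h⟩ := h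
  exact ⟨u, hu.1, h⟩

/-- Hartogs for equality up to units -/
theorem assoc_extend [T2Space X] {f g : X → ℂ} {x : X} (hf : HolN f x) (hg : HolN g x)
    (hnf : ∀ᶠ y in 𝓝 x, ∃ᶠ z in 𝓝 y, f z ≠ 0) (hng : ∀ᶠ y in 𝓝 x, ∃ᶠ z in 𝓝 y, g z ≠ 0)
    (h : ∀ᶠ y in 𝓝[≠] x, Assoc f g y) : Assoc f g x :=
  assoc_of_dvdAt (dvdAt_extend hf hg hng (h.mono fun _ hy => Assoc.dvdAt hy))
    (dvdAt_extend hg hf hnf (h.mono fun _ hy => Assoc.dvdAt hy.symm)) hng.self_of_nhds

/-- division by a coordinate -/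
theorem dvdAt_of_vanish {f l : X → ℂ} {x : X} (hf : HolN f x) (hl : HolN l x) (hlx : l x = 0)
    (hd : Dne l x) (h : ∀ᶠ y in 𝓝 x, l y = 0 → f y = 0) : DvdAt l f x := by
  obtain ⟨V, hV, hVo, hxV⟩ := _root_.eventually_nhds_iff.1
    ((ev_iff.2 (h.and (hf.eventually.and hl.eventually))).and
      ((chartAt (Cm 2) x).open_target.mem_nhds (mem_chart_target _ x)))
  have aux : ∀ z ∈ V, ∀ k : X → ℂ, HolN k ((chartAt (Cm 2) x).symm z) →
      DifferentiableAt ℂ (ger k x) z := by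
    intro z hz k hk
    have h3 := (hV z hz).2
    have h4 := (holN_iff x ((chartAt (Cm 2) x).map_target h3)).1 hk
    rw [(chartAt (Cm 2) x).right_inv h3] at h4
    exact h4.differentiableAt
  obtain ⟨B, hB, hxB, hBV, q, hq, hq2⟩ := Vale.Agent.P267.H757.exists_quot (l := ger l x)
    (h := ger f x) hVo hxV (fun z hz => (aux z hz _ (hV z hz).1.2.2).differentiableWithinAt)
    (fun z hz => (aux z hz _ (hV z hz).1.2.1).differentiableWithinAt) (fun z hz => (hV z hz).1.1)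
    (by simpa using hlx) ((fderiv_ger_iff hl.self).2 hd)
  refine ⟨q ∘ chartAt (Cm 2) x, ?_, ?_⟩
  · rw [an_iff]
    have h1 : AnalyticAt ℂ q (chartAt (Cm 2) x x) :=
      Vale.Agent.P268.analyticAt_of_differentiableOn hB hq hxB
    refine h1.congr ?_
    filter_upwards [(chartAt (Cm 2) x).open_target.mem_nhds (mem_chart_target _ x)] with z hz
    simp [ger, (chartAt (Cm 2) x).right_inv hz]
  · rw [← ev_iff]
    filter_upwards [(chartAt (Cm 2) x).open_target.mem_nhds (mem_chart_target _ x),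
      hB.mem_nhds hxB] with z hz1 hz2
    have h1 := hq2 z hz2
    simp only [Function.comp, (chartAt (Cm 2) x).right_inv hz1]
    simp only [ger, Function.comp] at h1
    rw [h1, mul_comm]

/-- a coordinate is not identically zero -/
theorem freq_ne_of_dne {l : X → ℂ} {x : X} (hl : HolN l x) (hd : Dne l x) :
    ∃ᶠ y in 𝓝 x, l y ≠ 0 := by
  intro hcon
  apply (fderiv_ger_iff hl.self).2 hd
  have h1 : ger l x =ᶠ[𝓝 (chartAt (Cm 2) x x)] fun _ => (0 : ℂ) := by
    have := ev_iff.2 hcon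
    filter_upwards [this] with z hz
    exact not_not.1 hz
  rw [h1.fderiv_eq]
  simp

/-- two coordinates with the same zero set -/
theorem assoc_of_dne {f g : X → ℂ} {x : X} (hf : HolN f x) (hg : HolN g x) (hfx : f x = 0)
    (hdf : Dne f x) (hdg : Dne g x) (h : ∀ᶠ y in 𝓝 x, (f y = 0 ↔ g y = 0)) : Assoc f g x := by
  have hgx : g x = 0 := h.self_of_nhds.1 hfx
  exact assoc_of_dvdAt (dvdAt_of_vanish hf hg hgx hdg (h.mono fun y hy => hy.2))
    (dvdAt_of_vanish hg hf hfx hdf (h.mono fun y hy => hy.1)) (freq_ne_of_dne hg hdg)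

end mfd

end Vale.Agent.P290.H470
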