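import Vale.Agent.P267.H823.Main
import Vale.Agent.P290.H470.Mfd

/-! # Prime divisors on a compact complex surface (helper470) -/

open Set Filter Metric Topology
open scoped Manifold ContDiff
open Vale.Agent.P267 Vale.Agent.P272.K Vale.Agent.P267.H815
open Vale.Agent.P267.H823 (RegAt Prime Rg finite_supp_diff_Rg exists_components)

set_option linter.unusedSectionVars false

noncomputable section

namespace Vale.Agent.P290.H470

variable {X : Type*} [TopologicalSpace X] [ChartedSpace (Cm 2) X] [IsManifold 𝓘(ℂ, Cm 2) ω X]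

theorem f_ne_frequently (D : EffDiv X) (x : X) :
    ∀ᶠ y in 𝓝 x, ∃ᶠ z in 𝓝 y, D.f x z ≠ 0 := by
  filter_upwards [mem_nhds D x] with y hy
  exact D.ne x y hy

theorem smooth_dne {P : EffDiv X} {y : X} (hy : y ∈ P.supp \ Sing P) : Dne (P.f y) y :=
  fun h => hy.2 ⟨hy.1, h⟩

theorem supp_frequently {P : EffDiv X} {y : X} (hy : y ∈ P.supp \ Sing P) :
    ∃ᶠ z in 𝓝[≠] y, z ∈ P.supp := by
  have h1 := zero_frequently (holN_f P y (P.mem y)) hy.1 (smooth_dne hy)
  have h2 : ∀ᶠ z in 𝓝[≠] y, z ∈ P.U y := (mem_nhds P y) |> mem_nhdsWithin_of_mem_nhds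
  refine (h1.and_eventually h2).mono ?_
  rintro z ⟨h3, h4⟩
  exact (mem_supp_iff P h4).2 h3

theorem eventually_notMem_finite [T2Space X] {S : Set X} (hS : S.Finite) (x : X) :
    ∀ᶠ y in 𝓝[≠] x, y ∉ S := by
  have h1 : IsOpen (S \ {x})ᶜ := (hS.subset sdiff_subset).isClosed.isOpen_compl
  have h2 : ∀ᶠ y in 𝓝 x, y ∈ (S \ {x})ᶜ := h1.mem_nhds (by simp)
  rw [eventually_nhdsWithin_iff]
  filter_upwards [h2] with y hy hyx hyS
  exact hy ⟨hyS, hyx⟩

theorem prime_infinite [T2Space X] {P : EffDiv X} (hP : Prime P) : P.supp.Infinite := by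
  intro hfin
  obtain ⟨y, hy⟩ := hP.conn.nonempty
  exact supp_frequently hy (eventually_notMem_finite hfin y)

theorem prime_dichotomy [T2Space X] [CompactSpace X] {P : EffDiv X} (hP : Prime P)
    (D : EffDiv X) : P.supp ⊆ D.supp ∨ (P.supp ∩ D.supp).Finite := by
  set u : Set X := {y | ∀ᶠ z in 𝓝 y, z ∈ P.supp → z ∈ D.supp} with hu
  set v : Set X := {y | ∀ᶠ z in 𝓝 y, ∀ᶠ w in 𝓝[≠] z, w ∈ P.supp → w ∉ D.supp} with hv
  have hdisj : ∀ y, y ∈ P.supp \ Sing P → y ∈ u → y ∉ v := by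
    intro y hy hyu hyv
    have h1 : ∀ᶠ w in 𝓝[≠] y, w ∈ P.supp → w ∉ D.supp := hyv.self_of_nhds
    have h2 : ∀ᶠ w in 𝓝[≠] y, w ∈ P.supp → w ∈ D.supp := hyu.filter_mono nhdsWithin_le_nhds
    obtain ⟨z, hz1, hz2, hz3⟩ := ((supp_frequently hy).and_eventually (h1.and h2)).exists
    exact hz2 hz1 (hz3 hz1)
  have hcov : P.supp \ Sing P ⊆ u ∪ v := by
    intro y hy
    have hPy : ∀ᶠ z in 𝓝 y, z ∈ P.U y ∧ z ∈ D.U y := inter_mem (mem_nhds P y) (mem_nhds D y)
    rcases dichotomy (holN_f P y (P.mem y)) hy.1 (smooth_dne hy) (holN_f D y (D.mem y)) with h | h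
    · left
      filter_upwards [h, hPy] with z hz1 hz2 hz3
      exact (mem_supp_iff D hz2.2).2 (hz1 ((mem_supp_iff P hz2.1).1 hz3))
    · right
      have h1 : ∀ᶠ z in 𝓝[≠] y, z ∈ P.supp → z ∉ D.supp := by
        filter_upwards [h, hPy.filter_mono nhdsWithin_le_nhds] with z hz1 hz2 hz3 hz4
        exact hz1 ((mem_supp_iff P hz2.1).1 hz3) ((mem_supp_iff D hz2.2).1 hz4)
      rw [eventually_nhdsWithin_iff] at h1
      obtain ⟨V, hV, hVo, hyV⟩ := _root_.eventually_nhds_iff.1 h1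
      filter_upwards [hVo.mem_nhds hyV] with z hz
      by_cases hzy : z = y
      · rw [hzy, eventually_nhdsWithin_iff]
        exact h1
      · refine Eventually.filter_mono nhdsWithin_le_nhds ?_
        filter_upwards [hVo.mem_nhds hz, isOpen_compl_singleton.mem_nhds hzy] with w hw1 hw2
        exact hV w hw1 hw2
  have huo : IsOpen u := by
    rw [isOpen_iff_mem_nhds]
    intro y hy
    exact eventually_eventually_nhds.2 hy
  have hvo : IsOpen v := by
    rw [isOpen_iff_mem_nhds]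
    intro y hy
    exact eventually_eventually_nhds.2 hy
  rcases isPreconnected_iff_subset_of_disjoint.1 hP.conn.isPreconnected u v huo hvo hcov (by
    ext y
    simp only [mem_inter_iff, mem_empty_iff_false, iff_false, not_and]
    intro hy hyu
    exact hdisj y hy hyu) with h | h
  · left
    refine hP.dense.trans (closure_minimal ?_ (isClosed_supp D))
    intro y hy
    have : y ∈ P.supp → y ∈ D.supp := (h hy : ∀ᶠ z in 𝓝 y, z ∈ P.supp → z ∈ D.supp).self_of_nhds
    exact this hy.1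
  · right
    by_contra hinf
    obtain ⟨S, hS⟩ := exists_sum P D
    have h1 : ((P.supp ∩ D.supp) \ (Sing P ∪ (S.supp \ Rg S))).Infinite :=
      Set.Infinite.sdiff hinf (hP.fin.union (finite_supp_diff_Rg S))
    obtain ⟨y, ⟨hyP, hyD⟩, hyn⟩ := h1.nonempty
    have hy1 : y ∉ Sing P := fun h => hyn (Or.inl h)
    have hySs : y ∈ S.supp := by rw [hS.supp]; exact Or.inl hyP
    have hy2 : y ∈ Rg S := by
      by_contra h
      exact hyn (Or.inr ⟨hySs, h⟩)
    obtain ⟨l, m, w, H⟩ := hy2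
    obtain ⟨w', H'⟩ := H.assoc (hS y).symm
    refine hdisj y ⟨hyP, hy1⟩ ?_ (h ⟨hyP, hy1⟩)
    have hD0 : ∀ᶠ z in 𝓝 y, l z = 0 → D.f y z = 0 := by
      refine vanish_of_mul' (F := D.f y) (G := P.f y) (u := w') (m := m) (holN_f D y (D.mem y))
        H'.hol H'.zero H'.dne ⟨H'.holv, H'.ne⟩ ?_ hyD
      filter_upwards [H'.eq] with z hz
      rw [← hz, mul_comm]
    have hw' : ∀ᶠ z in 𝓝 y, w' z ≠ 0 := H'.holv.continuousAt.eventually_ne H'.ne
    filter_upwards [H'.eq, hw', hD0, mem_nhds P y, mem_nhds D y] with z hz1 hz2 hz3 hz4 hz5 hz6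
    rw [mem_supp_iff P hz4] at hz6
    rw [mem_supp_iff D hz5]
    apply hz3
    rw [hz6, zero_mul] at hz1
    exact (pow_eq_zero_iff H'.mpos.ne').1 ((mul_eq_zero.1 hz1.symm).resolve_left hz2)

theorem supp_eq_of_subset [T2Space X] [CompactSpace X] {P P' : EffDiv X} (hP : Prime P)
    (hP' : Prime P') (h : P.supp ⊆ P'.supp) : P.supp = P'.supp := by
  rcases prime_dichotomy hP' P with h1 | h1
  · exact subset_antisymm h h1
  · exfalso
    rw [inter_eq_self_of_subset_right h] at h1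
    exact prime_infinite hP h1

/-- two prime divisors with the same support are equal -/
theorem same_of_supp_eq [T2Space X] {P P' : EffDiv X} (hP : Prime P) (hP' : Prime P')
    (h : P.supp = P'.supp) : Same P P' := by
  have key : ∀ y, y ∉ Sing P → y ∉ Sing P' → Assoc (P.f y) (P'.f y) y := by
    intro y h1 h2
    by_cases hy : y ∈ P.supp
    · have hy' : y ∈ P'.supp := h ▸ hy
      refine assoc_of_dne (holN_f P y (P.mem y)) (holN_f P' y (P'.mem y)) hy
        (smooth_dne ⟨hy, h1⟩) (smooth_dne ⟨hy', h2⟩) ?_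
      filter_upwards [mem_nhds P y, mem_nhds P' y] with z hz1 hz2
      rw [← mem_supp_iff P hz1, ← mem_supp_iff P' hz2, h]
    · have hy' : y ∉ P'.supp := h ▸ hy
      exact assoc_of_ne (holN_f P y (P.mem y)) (holN_f P' y (P'.mem y)) hy hy'
  intro x
  refine assoc_extend (holN_f P x (P.mem x)) (holN_f P' x (P'.mem x)) (f_ne_frequently P x)
    (f_ne_frequently P' x) ?_
  have h1 : ∀ᶠ y in 𝓝[≠] x, y ∈ P.U x ∧ y ∈ P'.U x :=
    mem_nhdsWithin_of_mem_nhds (inter_mem (mem_nhds P x) (mem_nhds P' x))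
  filter_upwards [eventually_notMem_finite hP.fin x, eventually_notMem_finite hP'.fin x, h1]
    with y hy1 hy2 hy3
  exact ((assoc_f P hy3.1 (P.mem y)).trans (key y hy1 hy2)).trans (assoc_f P' (P'.mem y) hy3.2)

end Vale.Agent.P290.H470
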